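import Vale.Agent.P363.Exist.Bridge.Spin

/-!
P363: the spinful energy in terms of the real form of the spatial components, and the normalised
minimising sequence of a lowest state.
-/

noncomputable section

namespace Vale.Agent.P363.Exist

open MeasureTheory Filter
open scoped BigOperators Topology ENNReal

variable {l lam : ℝ} {n : ℕ}

theorem isRealTest_re {f : Cfg n → ℂ} {K : NNReal} (hK : LipschitzWith K f)
    (hc : HasCompactSupport f) : IsRealTest fun x => (f x).re :=
  ⟨⟨_, Complex.reCLM.lipschitz.comp hK⟩, hc.comp_left (g := Complex.re) Complex.zero_re⟩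

theorem isRealTest_im {f : Cfg n → ℂ} {K : NNReal} (hK : LipschitzWith K f)
    (hc : HasCompactSupport f) : IsRealTest fun x => (f x).im :=
  ⟨⟨_, Complex.imCLM.lipschitz.comp hK⟩, hc.comp_left (g := Complex.im) Complex.zero_im⟩

/-- The energy splits into real and imaginary parts of the components. -/
theorem energy_split (hS : (molSys n l lam).Good) {ψ : Spins n → Cfg n → ℂ} (hψ : IsTest ψ) :
    energy (molPot l lam) ψ = ∑ s, ((molSys n l lam).form (fun x => (ψ s x).re) +
      (molSys n l lam).form (fun x => (ψ s x).im)) := by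
  refine Finset.sum_congr rfl fun s _ => ?_
  obtain ⟨K, hK⟩ := hψ.lipschitz s
  have ha := isRealTest_re hK (hψ.compact s)
  have hb := isRealTest_im hK (hψ.compact s)
  have hint : ∀ {φ : Cfg n → ℝ}, IsRealTest φ → Integrable (fun x =>
      (1 / 2 : ℝ) * ∑ j, dir ((molSys n l lam).v j) φ x ^ 2 + (molSys n l lam).V x * φ x ^ 2) :=
    fun hφ => ((integrable_finsetSum _ fun j _ =>
      (memLp_dir hφ ((molSys n l lam).v j)).integrable_sq).const_mul _).add
      ((hS.integrable_mul hφ hφ).congr (Eventually.of_forall fun x => by ring))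
  rw [Sys.form, Sys.form, ← integral_add (hint ha) (hint hb)]
  refine integral_congr_ae ?_
  filter_upwards [hK.ae_differentiableAt] with x hx
  have hre := (Complex.reCLM.hasFDerivAt.comp x hx.hasFDerivAt).fderiv
  have him := (Complex.imCLM.hasFDerivAt.comp x hx.hasFDerivAt).fderiv
  simp only [Function.comp_def, Complex.reCLM_apply, Complex.imCLM_apply] at hre him
  have hd : ∀ p : Fin n × Fin 3,
      ‖fderiv ℝ (ψ s) x (Pi.single p.1 (EuclideanSpace.single p.2 (1 : ℝ)))‖ ^ 2 =
        dir ((molSys n l lam).v p) (fun y => (ψ s y).re) x ^ 2 +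
          dir ((molSys n l lam).v p) (fun y => (ψ s y).im) x ^ 2 := fun p => by
    simp only [dir, molSys, dirs, unit3, hre, him, ContinuousLinearMap.coe_comp,
      Function.comp_apply, Complex.reCLM_apply, Complex.imCLM_apply, Complex.sq_norm,
      Complex.normSq_apply]
    ring
  have hg : ∑ i, gradSq i (ψ s) x = ∑ p : Fin n × Fin 3,
      ‖fderiv ℝ (ψ s) x (Pi.single p.1 (EuclideanSpace.single p.2 (1 : ℝ)))‖ ^ 2 := by
    rw [Fintype.sum_prod_type]; rfl
  rw [hg, Finset.sum_congr rfl fun p _ => hd p, Finset.sum_add_distrib, Complex.sq_norm,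
    Complex.normSq_apply, show (molSys n l lam).V x = molPot l lam x from rfl]
  ring

/-- The norm splits in the same way. -/
theorem normSq_split {ψ : Spins n → Cfg n → ℂ} (hψ : IsTest ψ) :
    normSq ψ = ∑ s, (mass (fun x => (ψ s x).re) + mass (fun x => (ψ s x).im)) := by
  refine Finset.sum_congr rfl fun s _ => ?_
  obtain ⟨K, hK⟩ := hψ.lipschitz s
  rw [mass, mass, ← integral_add (memLp_test (isRealTest_re hK (hψ.compact s))).integrable_sq
    (memLp_test (isRealTest_im hK (hψ.compact s))).integrable_sq]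
  refine integral_congr_ae (Eventually.of_forall fun x => ?_)
  simp only [Complex.sq_norm, Complex.normSq_apply]
  ring

theorem form_comp_renum (hS : (molSys n l lam).Good) (σ : Equiv.Perm (Fin n)) {φ : Cfg n → ℝ}
    (hφ : IsRealTest φ) :
    (molSys n l lam).form (φ ∘ renum σ) = (molSys n l lam).form φ := by
  have h := (molSys_symm (R := LinearIsometryEquiv.refl ℝ Space) (Or.inl rfl) σ l lam).bil_comp 0
    hφ hφ
  rw [Sys.bil_eq_form hS 0 (isRealTest_comp hφ _), Sys.bil_eq_form hS 0 hφ] at h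
  simpa using h

theorem form_smul (hS : (molSys n l lam).Good) (a : ℝ) {φ : Cfg n → ℝ} (hφ : IsRealTest φ) :
    (molSys n l lam).form (a • φ) = a ^ 2 * (molSys n l lam).form φ := by
  have h := (molSys n l lam).bil_smul hS 0 a hφ
  rw [Sys.bil_eq_form hS 0 (isRealTest_smul a hφ), Sys.bil_eq_form hS 0 hφ] at h
  simpa using h

theorem mass_comp_renum (σ : Equiv.Perm (Fin n)) (φ : Cfg n → ℝ) :
    mass (φ ∘ renum σ) = mass φ :=
  mass_comp (measurePreserving_slotMap _ σ) φ

/-- The lower bound of the antisymmetric sector holds for each component of a spinful test. -/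
theorem lower_component {E : ℝ}
    (hlow : ∀ φ : Cfg 3 → ℝ, IsRealTest φ → Anti01 φ → E * ∫ x, φ x ^ 2 ≤ formQ l lam φ)
    (hS : (molSys 3 l lam).Good) {a : Cfg 3 → ℝ} (ha : IsRealTest a) {i j : Fin 3} (hij : i ≠ j)
    (hanti : ∀ x : Cfg 3, a (x ∘ Equiv.swap i j) = -a x) :
    E * mass a ≤ (molSys 3 l lam).form a := by
  obtain ⟨τ, h0, h1⟩ := perm_front i j hij
  have hc : ∀ y : Cfg 3, (y ∘ Equiv.swap 0 1) ∘ τ = (y ∘ τ) ∘ Equiv.swap i j := by
    intro y
    funext k
    simp only [Function.comp_apply]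
    congr 1
    rw [← h0, ← h1, τ.symm.swap_apply_apply]
    simp [Equiv.Perm.mul_apply]
  have hA : Anti01 (a ∘ renum τ) := fun y => by
    simp only [Function.comp_apply, renum_apply, hc, hanti]
  have h := hlow _ (isRealTest_comp ha (renum τ)) hA
  rw [← form_molSys, form_comp_renum hS τ ha] at h
  exact (congrArg (E * ·) (mass_comp_renum τ a)).symm.trans_le h

/-- The lower bound over all antisymmetric spinful tests. -/
theorem energy_ge {E : ℝ}
    (hlow : ∀ φ : Cfg 3 → ℝ, IsRealTest φ → Anti01 φ → E * ∫ x, φ x ^ 2 ≤ formQ l lam φ)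
    (hS : (molSys 3 l lam).Good) {ψ : Spins 3 → Cfg 3 → ℂ} (hψ : IsTest ψ) (h1 : normSq ψ = 1) :
    E ≤ energy (molPot l lam) ψ := by
  rw [energy_split hS hψ]
  rw [normSq_split hψ] at h1
  rw [← mul_one E, ← h1, Finset.mul_sum]
  refine Finset.sum_le_sum fun s _ => ?_
  obtain ⟨i, j, hij, hs⟩ := spin_pair s
  obtain ⟨K, hK⟩ := hψ.lipschitz s
  have hsw : s ∘ Equiv.swap i j = s := by
    funext k
    rcases eq_or_ne k i with rfl | hki
    · simp [hs]
    rcases eq_or_ne k j with rfl | hkj
    · simp [hs]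
    · simp [Equiv.swap_apply_of_ne_of_ne hki hkj]
  have hv : ∀ x : Cfg 3, ψ s (x ∘ Equiv.swap i j) = -ψ s x := fun x => by
    have := hψ.antisymm (Equiv.swap i j) s x
    rw [hsw, Equiv.Perm.sign_swap hij] at this
    simpa using this
  rw [mul_add]
  exact add_le_add
    (lower_component hlow hS (isRealTest_re hK (hψ.compact s)) hij fun x => by simp [hv x])
    (lower_component hlow hS (isRealTest_im hK (hψ.compact s)) hij fun x => by simp [hv x])

theorem isTest_spinState {φ : Cfg 3 → ℝ} (hφ : IsRealTest φ) (hA : Anti01 φ) :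
    IsTest (spinState φ) := by
  have h : ∀ s, IsRealTest (spinComp φ s) := fun s => isRealTest_smul _ (isRealTest_comp hφ _)
  refine ⟨fun s => ?_, fun s => ?_, fun p s x => ?_⟩
  · obtain ⟨K, hK⟩ := (h s).lipschitz
    exact ⟨_, Complex.isometry_ofReal.lipschitz.comp hK⟩
  · exact (h s).compact.comp_left (g := fun t : ℝ => (t : ℂ)) Complex.ofReal_zero
  · simp only [spinState, spinComp_antisymm hA p s x]
    push_cast
    rfl

theorem normSq_spinState {φ : Cfg 3 → ℝ} : normSq (spinState φ) = mass φ := by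
  have h : ∀ s, (∫ x, ‖spinState φ s x‖ ^ 2) =
      (√(1 / 3) * (spinSign s : ℝ)) ^ 2 * mass φ := fun s => by
    rw [← mass_comp_renum (spinPerm s) φ, ← mass_smul]
    simp [mass, spinState, spinComp, Complex.norm_real, mul_pow, sq_abs]
  rw [normSq, Finset.sum_congr rfl fun s _ => h s, sum_spin _ fun s hs => by simp [hs],
    spinCoef_sq (Or.inl rfl), spinCoef_sq (Or.inr (Or.inl rfl)),
    spinCoef_sq (Or.inr (Or.inr rfl))]
  ring

theorem energy_spinState (hS : (molSys 3 l lam).Good) {φ : Cfg 3 → ℝ} (hφ : IsRealTest φ)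
    (hA : Anti01 φ) : energy (molPot l lam) (spinState φ) = formQ l lam φ := by
  have h0 : (molSys 3 l lam).form (fun _ => 0) = 0 := by
    simp [Sys.form, dir]
  have h : ∀ s, (molSys 3 l lam).form (fun x => (spinState φ s x).re) +
      (molSys 3 l lam).form (fun x => (spinState φ s x).im) =
      (√(1 / 3) * (spinSign s : ℝ)) ^ 2 * (molSys 3 l lam).form φ := fun s => by
    simp only [spinState, Complex.ofReal_re, Complex.ofReal_im, h0, add_zero]
    rw [show (fun x => spinComp φ s x) = spinComp φ s from rfl, spinComp,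
      form_smul hS _ (isRealTest_comp hφ _), form_comp_renum hS _ hφ]
  rw [energy_split hS (isTest_spinState hφ hA), Finset.sum_congr rfl fun s _ => h s,
    sum_spin _ fun s hs => by simp [hs],
    spinCoef_sq (Or.inl rfl), spinCoef_sq (Or.inr (Or.inl rfl)),
    spinCoef_sq (Or.inr (Or.inr rfl)), form_molSys]
  ring

theorem closed_anti01 : Closed (Anti01 : (Cfg 3 → ℝ) → Prop) := by
  intro a b φ χ hφ hχ x
  simp only [Pi.add_apply, Pi.smul_apply, smul_eq_mul, hφ x, hχ x]
  ring

/-- A lowest state is the limit of normalised tests with energies tending to `E`. -/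
theorem exists_minimising {E : ℝ} {f : Cfg 3 → ℝ} {D : Fin 3 → Fin 3 → Cfg 3 → ℝ}
    (h : IsLowest l lam Anti01 E f D) (hS : (molSys 3 l lam).Good) :
    ∃ ψ : ℕ → Cfg 3 → ℝ, (∀ k, IsRealTest (ψ k) ∧ Anti01 (ψ k) ∧ mass (ψ k) = 1) ∧
      Tendsto (fun k => formQ l lam (ψ k)) atTop (𝓝 E) ∧
      Tendsto (fun k => mass (ψ k - f)) atTop (𝓝 0) := by
  obtain ⟨hf, hD, φ, hφ, hv, hg⟩ := h.lim
  have hA : (molSys 3 l lam).Approx φ f (fun p => D p.1 p.2) :=
    ⟨fun k => (hφ k).1, hf, fun p => hD _ _, hv, fun p => hg p.1 p.2⟩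
  -- the limit of the bilinear form vanishes on the diagonal
  have hweak : ∀ η, IsRealTest η → (molSys 3 l lam).bilLim E f η (fun p => D p.1 p.2)
      (fun p => dir ((molSys 3 l lam).v p) η) = 0 := by
    intro η hη
    have hi := (hA.tendsto_bil (Sys.Approx.const _ hη) hS E).1
    rw [← h.weak η hη]
    have hj : ∀ p : Fin 3 × Fin 3,
        Integrable fun x => D p.1 p.2 x * dir ((molSys 3 l lam).v p) η x :=
      fun p => (hD p.1 p.2).integrable_mul (memLp_dir hη _)
    have e : (fun x => (1 / 2 : ℝ) * ∑ i, ∑ a, D i a x * slotDeriv i a η x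
        + (molPot l lam x - E) * f x * η x) = fun x => (1 / 2 : ℝ) *
          (∑ p : Fin 3 × Fin 3, D p.1 p.2 x * dir ((molSys 3 l lam).v p) η x)
          + ((molSys 3 l lam).V x - E) * f x * η x := by
      funext x
      rw [Fintype.sum_prod_type]
      rfl
    rw [e, integral_add ((integrable_finsetSum _ fun p _ => hj p).const_mul _) hi,
      integral_const_mul, integral_finsetSum _ fun p _ => hj p]
    rfl
  set L := (molSys 3 l lam).bilLim E f f (fun p => D p.1 p.2) (fun p => D p.1 p.2) with hL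
  have hex : ∀ k, ∃ j, k ≤ j ∧ |(molSys 3 l lam).bil E (φ j) (φ k)| < 1 / ((k : ℝ) + 1) := by
    intro k
    have ht := (hA.tendsto_bil (Sys.Approx.const _ (hφ k).1) hS E).2
    rw [hweak _ (hφ k).1] at ht
    have h2 := (Metric.tendsto_nhds.1 ht (1 / ((k : ℝ) + 1)) (by positivity)).and
      (eventually_ge_atTop k)
    obtain ⟨j, hj, hkj⟩ := h2.exists
    exact ⟨j, hkj, by simpa using hj⟩
  choose g hgk hgsmall using hex
  have hgt : Tendsto g atTop atTop := tendsto_atTop_mono hgk tendsto_id
  have hAg : (molSys 3 l lam).Approx (fun k => φ (g k)) f (fun p => D p.1 p.2) :=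
    ⟨fun k => hA.test _, hf, hA.memLp_grad, hA.value.comp hgt, fun p => (hA.grad p).comp hgt⟩
  have hL0 : L = 0 := tendsto_nhds_unique (hAg.tendsto_bil hA hS E).2
    (squeeze_zero_norm (fun k => (hgsmall k).le) tendsto_one_div_add_atTop_nhds_zero_nat)
  have hb : Tendsto (fun k => (molSys 3 l lam).bil E (φ k) (φ k)) atTop (𝓝 0) := by
    have := (hA.tendsto_bil hA hS E).2
    rwa [← hL, hL0] at this
  have hm : Tendsto (fun k => mass (φ k)) atTop (𝓝 1) := by
    have := tendsto_mass (fun k => memLp_test (hφ k).1) hf hv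
    rwa [show mass f = 1 from h.mass_one] at this
  obtain ⟨N, hN⟩ := eventually_atTop.1 (hm.eventually_const_lt (show (0 : ℝ) < 1 by norm_num))
  have hN' : Tendsto (fun k => k + N) atTop atTop := tendsto_add_atTop_nat N
  set c : ℕ → ℝ := fun k => (√(mass (φ (k + N))))⁻¹ with hc
  have hpos : ∀ k, 0 < mass (φ (k + N)) := fun k => hN _ (Nat.le_add_left N k)
  have hc2 : ∀ k, c k ^ 2 = (mass (φ (k + N)))⁻¹ := fun k => by
    simp only [hc, inv_pow, Real.sq_sqrt (hpos k).le]
  refine ⟨fun k => c k • φ (k + N), fun k => ⟨isRealTest_smul _ (hφ _).1,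
    closed_anti01.smul _ (hφ _).2, ?_⟩, ?_, ?_⟩
  · rw [mass_smul, hc2, inv_mul_cancel₀ (hpos k).ne']
  · have e : ∀ k, formQ l lam (c k • φ (k + N)) =
        (molSys 3 l lam).bil E (φ (k + N)) (φ (k + N)) / mass (φ (k + N)) + E := fun k => by
      rw [← form_molSys, form_smul hS _ (hφ _).1, hc2, Sys.bil_eq_form hS E (hφ _).1]
      field_simp [(hpos k).ne']
      ring
    simp only [e]
    have := ((hb.comp hN').div (hm.comp hN') one_ne_zero).add_const E
    simpa using this
  · have hc1 : Tendsto c atTop (𝓝 1) := by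
      have := (((Real.continuous_sqrt.tendsto 1).comp (hm.comp hN'))).inv₀ (by simp)
      simpa [hc, Function.comp_def] using this
    refine squeeze_zero (fun k => mass_nonneg _) (fun k => mass_sub_le
      (memLp_test (isRealTest_smul _ (hφ _).1)) (memLp_test (hφ (k + N)).1) hf) ?_
    have e : ∀ k, mass (c k • φ (k + N) - φ (k + N)) = (c k - 1) ^ 2 * mass (φ (k + N)) :=
      fun k => by rw [← mass_smul, sub_smul, one_smul]
    simp only [e]
    have := ((((hc1.sub_const 1).pow 2).mul (hm.comp hN')).const_mul 2).add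
      ((hv.comp hN').const_mul 2)
    simpa [Function.comp_def, mass] using this

end Vale.Agent.P363.Exist
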