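import Vale.Agent.P363.Exist.Mol
import Vale.Agent.P363.KS.Scale

/-!
P363: the spin state of a spatial function which is antisymmetric in the first two electrons, and
the combinatorics of its three components.
-/

noncomputable section

namespace Vale.Agent.P363.Exist

open MeasureTheory Filter
open scoped BigOperators Topology ENNReal

/-- The positions renumbered. -/
abbrev renum {n : ℕ} (σ : Equiv.Perm (Fin n)) : Cfg n ≃L[ℝ] Cfg n :=
  slotMap (LinearIsometryEquiv.refl ℝ Space) σ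

theorem renum_apply {n : ℕ} (σ : Equiv.Perm (Fin n)) (x : Cfg n) : renum σ x = x ∘ σ := rfl

/-- The sign of a spin component, zero outside the three components of the state. -/
def spinSign (s : Spins 3) : ℤ :=
  if s = ![0, 0, 1] then 1 else if s = ![0, 1, 0] then -1 else if s = ![1, 0, 0] then 1 else 0

/-- The renumbering in a spin component. -/
def spinPerm (s : Spins 3) : Equiv.Perm (Fin 3) :=
  if s = ![0, 1, 0] then Equiv.swap 1 2 else if s = ![1, 0, 0] then finRotate 3 else 1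

/-- The spin state of a spatial function, as real components. -/
def spinComp (φ : Cfg 3 → ℝ) (s : Spins 3) : Cfg 3 → ℝ :=
  (√(1 / 3) * (spinSign s : ℝ)) • (φ ∘ renum (spinPerm s))

/-- The spin state. -/
def spinState (φ : Cfg 3 → ℝ) : Spins 3 → Cfg 3 → ℂ := fun s x => (spinComp φ s x : ℂ)

theorem spin_table : ∀ (p : Equiv.Perm (Fin 3)) (s : Spins 3),
    (spinSign (s ∘ p) = 0 ∧ spinSign s = 0) ∨
    (p * spinPerm (s ∘ p) = spinPerm s ∧
      spinSign (s ∘ p) = ((Equiv.Perm.sign p : ℤˣ) : ℤ) * spinSign s) ∨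
    (p * spinPerm (s ∘ p) = spinPerm s * Equiv.swap 0 1 ∧
      -spinSign (s ∘ p) = ((Equiv.Perm.sign p : ℤˣ) : ℤ) * spinSign s) := by
  decide +kernel

theorem spin_pair : ∀ s : Spins 3, ∃ i j : Fin 3, i ≠ j ∧ s i = s j := by
  decide +kernel

theorem perm_front : ∀ i j : Fin 3, i ≠ j →
    ∃ τ : Equiv.Perm (Fin 3), τ.symm 0 = i ∧ τ.symm 1 = j := by
  decide +kernel

theorem perm_insert : ∀ (σ : Equiv.Perm (Fin 3)) (i : Fin 3),
    ∃ π : Equiv.Perm (Fin 2), ∀ k, σ ((σ.symm i).succAbove k) = i.succAbove (π k) := by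
  decide +kernel

/-- A spin state is antisymmetric. -/
theorem spinComp_antisymm {φ : Cfg 3 → ℝ} (hφ : Anti01 φ) (p : Equiv.Perm (Fin 3)) (s : Spins 3)
    (x : Cfg 3) :
    spinComp φ (s ∘ p) (x ∘ p) = ((Equiv.Perm.sign p : ℤ) : ℝ) * spinComp φ s x := by
  have hc : ∀ q : Equiv.Perm (Fin 3), (x ∘ p) ∘ q = x ∘ (p * q : Equiv.Perm (Fin 3)) :=
    fun q => rfl
  simp only [spinComp, Pi.smul_apply, Function.comp_apply, smul_eq_mul, renum_apply]
  rw [hc]
  rcases spin_table p s with ⟨h1, h2⟩ | ⟨h1, h2⟩ | ⟨h1, h2⟩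
  · simp [h1, h2]
  · rw [h1, h2]
    push_cast
    ring
  · rw [h1, show x ∘ ((spinPerm s * Equiv.swap 0 1 : Equiv.Perm (Fin 3)))
      = (x ∘ spinPerm s) ∘ Equiv.swap 0 1 from rfl, hφ]
    have : ((spinSign (s ∘ p) : ℤ) : ℝ) =
        -(((Equiv.Perm.sign p : ℤˣ) : ℤ) : ℝ) * (spinSign s : ℝ) := by
      have := congrArg (fun z : ℤ => (z : ℝ)) h2
      push_cast at this
      linarith
    rw [this]
    ring

/-- A sum over the spin components. -/
theorem sum_spin {α : Type*} [AddCommMonoid α] (G : Spins 3 → α)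
    (h0 : ∀ s, spinSign s = 0 → G s = 0) :
    ∑ s, G s = G ![0, 0, 1] + G ![0, 1, 0] + G ![1, 0, 0] := by
  rw [← Finset.sum_subset (Finset.subset_univ {![0, 0, 1], ![0, 1, 0], ![1, 0, 0]}) fun s _ hs => ?_]
  · rw [Finset.sum_insert (by decide), Finset.sum_pair (by decide), add_assoc]
  · simp only [Finset.mem_insert, Finset.mem_singleton, not_or] at hs
    exact h0 s (by simp [spinSign, hs.1, hs.2.1, hs.2.2])

theorem spinCoef_sq {s : Spins 3} (hs : s = ![0, 0, 1] ∨ s = ![0, 1, 0] ∨ s = ![1, 0, 0]) :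
    (√(1 / 3) * (spinSign s : ℝ)) ^ 2 = 1 / 3 := by
  have h : ∀ t : Spins 3, t = ![0, 0, 1] ∨ t = ![0, 1, 0] ∨ t = ![1, 0, 0] →
      spinSign t ^ 2 = 1 := by decide
  have h' : ((spinSign s : ℤ) : ℝ) ^ 2 = 1 := by exact_mod_cast h s hs
  rw [mul_pow, Real.sq_sqrt (by norm_num), h', mul_one]

/-- The wave function of the bridge is a dilated spin state. -/
theorem molState_eq {Z : ℝ} (hZ : 0 < Z) (f : Cfg 3 → ℝ) :
    molState Z f = scaleCfg Z (spinState f) := by
  funext s x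
  have hc : Z ^ ((3 * (3 : ℕ) : ℝ) / 2) * √(1 / 3) = √(Z ^ 9 / 3) := by
    rw [← Real.sqrt_sq (Real.rpow_nonneg hZ.le ((3 * (3 : ℕ) : ℝ) / 2)), rpow_half_sq hZ,
      ← Real.sqrt_mul (by positivity)]
    congr 1
    ring
  simp only [molState, scaleCfg, spinState, spinComp, Pi.smul_apply, Function.comp_apply,
    smul_eq_mul]
  rw [← Complex.ofReal_mul, ← mul_assoc, ← mul_assoc, hc]
  congr 1
  rw [mul_assoc]
  congr 1
  have e1 : spinPerm ![0, 0, 1] = 1 ∧ spinSign ![0, 0, 1] = 1 := by decide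
  have e2 : spinPerm ![0, 1, 0] = Equiv.swap 1 2 ∧ spinSign ![0, 1, 0] = -1 := by decide
  have e3 : spinPerm ![1, 0, 0] = finRotate 3 ∧ spinSign ![1, 0, 0] = 1 := by decide
  by_cases h1 : s = ![0, 0, 1]
  · rw [if_pos h1, h1, e1.1, e1.2]
    simp [renum_apply]
  rw [if_neg h1]
  by_cases h2 : s = ![0, 1, 0]
  · rw [if_pos h2, h2, e2.1, e2.2]
    push_cast
    rw [neg_one_mul]
    congr 2
    funext i
    fin_cases i <;> rfl
  rw [if_neg h2]
  by_cases h3 : s = ![1, 0, 0]
  · rw [if_pos h3, h3, e3.1, e3.2]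
    push_cast
    rw [one_mul]
    congr 1
    funext i
    fin_cases i <;> rfl
  rw [if_neg h3]
  simp [spinSign, h1, h2, h3]

/-- A renumbering does not change the total of a one-electron density. -/
theorem lintegral_insert_renum (σ : Equiv.Perm (Fin 3)) (i : Fin 3) (r : Space)
    (F : Cfg 3 → ℝ≥0∞) :
    ∫⁻ y : Cfg 2, F (renum σ (i.insertNth r y)) =
      ∫⁻ y : Cfg 2, F ((σ.symm i).insertNth r y) := by
  obtain ⟨π, hπ⟩ := perm_insert σ i
  have h : ∀ y : Cfg 2, renum σ (i.insertNth r y) = (σ.symm i).insertNth r (renum π y) := by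
    intro y
    funext a
    rcases Fin.eq_self_or_eq_succAbove (σ.symm i) a with rfl | ⟨k, rfl⟩
    · simp [renum_apply]
    · simp [renum_apply, hπ]
  simp only [h]
  exact (measurePreserving_slotMap (LinearIsometryEquiv.refl ℝ Space) π).lintegral_comp_emb
    (renum π).toHomeomorph.measurableEmbedding (fun z => F ((σ.symm i).insertNth r z))

/-- The one-electron density of a spin state. -/
theorem density_spinState (f : Cfg 3 → ℝ) (r : Space) :
    density (spinState f) r = density1 f r := by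
  set F : Cfg 3 → ℝ≥0∞ := fun x => ENNReal.ofReal (f x ^ 2) with hF
  have hcomp : ∀ s x, ‖spinState f s x‖ₑ ^ 2 =
      ENNReal.ofReal ((√(1 / 3) * (spinSign s : ℝ)) ^ 2) * F (renum (spinPerm s) x) := by
    intro s x
    rw [hF, ← ENNReal.ofReal_mul (sq_nonneg _), ← mul_pow, ← ofReal_norm, ← ENNReal.ofReal_pow
      (norm_nonneg _), spinState, Complex.norm_real, Real.norm_eq_abs, sq_abs]
    simp [spinComp]
  have hz : ∀ s : Spins 3, spinSign s = 0 →
      (∑ i : Fin 3, ENNReal.ofReal ((√(1 / 3) * (spinSign s : ℝ)) ^ 2) *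
        ∫⁻ y, F ((spinPerm s).symm i |>.insertNth r y)) = 0 := fun s hs => by simp [hs]
  simp only [density, hcomp, lintegral_const_mul' _ _ ENNReal.ofReal_ne_top,
    lintegral_insert_renum]
  rw [Finset.sum_comm, sum_spin _ hz]
  have hs : ∀ s : Spins 3, (s = ![0, 0, 1] ∨ s = ![0, 1, 0] ∨ s = ![1, 0, 0]) →
      (∑ i : Fin 3, ENNReal.ofReal ((√(1 / 3) * (spinSign s : ℝ)) ^ 2) *
        ∫⁻ y, F ((spinPerm s).symm i |>.insertNth r y)) =
        ENNReal.ofReal (1 / 3) * density1 f r := by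
    intro s hs
    rw [← Finset.mul_sum, spinCoef_sq hs,
      Equiv.sum_comp (spinPerm s).symm (fun j => ∫⁻ y, F (j.insertNth r y))]
    rfl
  rw [hs _ (Or.inl rfl), hs _ (Or.inr (Or.inl rfl)), hs _ (Or.inr (Or.inr rfl)), ← add_mul,
    ← add_mul, ← ENNReal.ofReal_add (by norm_num) (by norm_num),
    ← ENNReal.ofReal_add (by norm_num) (by norm_num)]
  norm_num

end Vale.Agent.P363.Exist
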